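import Mathlib

/-! Row 221, block X: interpolation of derivatives on balls (Landau-Kolmogorov). -/

set_option autoImplicit false

open Set Metric
open scoped ContDiff

namespace Crest.Agent.N221.X

/-- weights that pick the linear Taylor coefficient -/
lemma exists_weights (N : ℕ) : ∃ w : Fin N → ℝ, ∀ k : Fin N,
    ∑ i, w i * ((i : ℕ) : ℝ) ^ (k : ℕ) = if (k : ℕ) = 1 then 1 else 0 := by
  classical
  set V := Matrix.vandermonde (fun i : Fin N => ((i : ℕ) : ℝ)) with hV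
  have hdet : V.det ≠ 0 := Matrix.det_vandermonde_ne_zero_iff.2 fun i j e =>
    Fin.ext (by exact_mod_cast e)
  refine ⟨Matrix.vecMul (fun k : Fin N => if (k : ℕ) = 1 then (1 : ℝ) else 0) V⁻¹, fun k => ?_⟩
  have h1 : Matrix.vecMul (Matrix.vecMul (fun k : Fin N => if (k : ℕ) = 1 then (1 : ℝ) else 0) V⁻¹)
      V = fun k : Fin N => if (k : ℕ) = 1 then (1 : ℝ) else 0 := by
    rw [Matrix.vecMul_vecMul, Matrix.nonsing_inv_mul _ (isUnit_iff_ne_zero.2 hdet),
      Matrix.vecMul_one]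
  exact congrFun h1 k

/-- derivatives along a line -/
lemma iteratedDeriv_line {E F : Type} [NormedAddCommGroup E] [NormedSpace ℝ E]
    [NormedAddCommGroup F] [NormedSpace ℝ F] {h : E → F} {s : Set E} (hs : IsOpen s) {N : ℕ}
    (hh : ContDiffOn ℝ N h s) (y u : E) {t : ℝ} (ht : y + t • u ∈ s) :
    iteratedDeriv N (fun r : ℝ => h (y + r • u)) t =
      iteratedFDeriv ℝ N h (y + t • u) fun _ => u := by
  set g : ℝ →L[ℝ] E := ContinuousLinearMap.toSpanSingleton ℝ u with hg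
  have hs' : IsOpen ((fun z => y + z) ⁻¹' s) := hs.preimage (by fun_prop)
  have hs'' : IsOpen (g ⁻¹' ((fun z => y + z) ⁻¹' s)) := hs'.preimage g.continuous
  have hf : ContDiffOn ℝ N (fun z => h (y + z)) ((fun z => y + z) ⁻¹' s) :=
    hh.comp (contDiff_const.add contDiff_id).contDiffOn fun _ hz => hz
  have ht' : g t ∈ (fun z => y + z) ⁻¹' s := ht
  have h1 := g.iteratedFDerivWithin_comp_right hf hs'.uniqueDiffOn hs''.uniqueDiffOn ht'
    (i := N) le_rfl
  rw [iteratedFDerivWithin_of_isOpen N hs'' ht', iteratedFDerivWithin_of_isOpen N hs' ht',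
    iteratedFDeriv_comp_add_left] at h1
  rw [iteratedDeriv_eq_iteratedFDeriv]
  have h2 : (fun r : ℝ => h (y + r • u)) = (fun z => h (y + z)) ∘ g := rfl
  rw [h2, h1]
  simp [hg]

/-- first derivative from the sup norm and the `N`-th derivative -/
theorem int_one (N : ℕ) (hN : 2 ≤ N) : ∃ C : ℝ, 0 < C ∧
    ∀ (E F : Type) [NormedAddCommGroup E] [NormedSpace ℝ E] [NormedAddCommGroup F]
      [NormedSpace ℝ F] [CompleteSpace F] (h : E → F) (x : E) (ε A B : ℝ), 0 < ε →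
      ContDiffOn ℝ N h (ball x ε) → (∀ y ∈ ball x ε, ‖h y‖ ≤ A) →
      (∀ y ∈ ball x ε, ‖iteratedFDeriv ℝ N h y‖ ≤ B) →
      ∀ y ∈ ball x (ε / 2), ‖fderiv ℝ h y‖ ≤ C * (A / ε + B * ε ^ (N - 1)) := by
  obtain ⟨M, rfl⟩ : ∃ M, N = M + 1 := ⟨N - 1, by omega⟩
  obtain ⟨w, hw⟩ := exists_weights (M + 1)
  set W : ℝ := ∑ i, |w i| with hW
  have hW0 : 0 ≤ W := Finset.sum_nonneg fun _ _ => abs_nonneg _
  refine ⟨4 * (M + 1) * (W + 1), by positivity, ?_⟩
  intro E F _ _ _ _ _ h x ε A B hε hh hA hB y hy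
  have hA0 : 0 ≤ A := (norm_nonneg _).trans (hA x (mem_ball_self hε))
  have hB0 : 0 ≤ B := (norm_nonneg _).trans (hB x (mem_ball_self hε))
  have hyx : y ∈ ball x ε := ball_subset_ball (by linarith) hy
  refine ContinuousLinearMap.opNorm_le_of_unit_norm (by positivity) fun u hu => ?_
  have hb : (0 : ℝ) < ε / 4 := by positivity
  have hmem : ∀ t ∈ Icc (0 : ℝ) (ε / 4), y + t • u ∈ ball x ε := by
    intro t ht
    have h1 : dist (y + t • u) y = t := by
      rw [dist_eq_norm, add_sub_cancel_left, norm_smul, hu, mul_one, Real.norm_of_nonneg ht.1]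
    have h2 := dist_triangle (y + t • u) y x
    rw [mem_ball] at hy ⊢
    linarith [ht.2]
  set φ : ℝ → F := fun r => h (y + r • u) with hφ
  have hat : ∀ t ∈ Icc (0 : ℝ) (ε / 4), ContDiffAt ℝ (M + 1 : ℕ) φ t := fun t ht =>
    (hh.contDiffAt (isOpen_ball.mem_nhds (hmem t ht))).comp t
      (f := fun r : ℝ => y + r • u) (by fun_prop)
  have hon : ContDiffOn ℝ (M + 1) φ (Icc 0 (ε / 4)) := fun t ht => by
    exact_mod_cast (hat t ht).contDiffWithinAt
  have hbd : ∀ t ∈ Icc (0 : ℝ) (ε / 4), ‖iteratedDerivWithin (M + 1) φ (Icc 0 (ε / 4)) t‖ ≤ B := by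
    intro t ht
    rw [iteratedDerivWithin_eq_iteratedDeriv (uniqueDiffOn_Icc hb) (hat t ht) ht, hφ,
      iteratedDeriv_line isOpen_ball hh y u (hmem t ht)]
    refine (ContinuousMultilinearMap.le_opNorm _ _).trans ?_
    simpa [hu] using hB _ (hmem t ht)
  set δ : ℝ := ε / (4 * (M + 1)) with hδ
  have hδ0 : 0 < δ := by positivity
  have hpt : ∀ i : Fin (M + 1), ((i : ℕ) : ℝ) * δ ∈ Icc (0 : ℝ) (ε / 4) := by
    intro i
    refine ⟨by positivity, ?_⟩
    have h1 : ((i : ℕ) : ℝ) ≤ M + 1 := by exact_mod_cast i.2.le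
    calc ((i : ℕ) : ℝ) * δ ≤ (M + 1) * δ := by gcongr
      _ = ε / 4 := by rw [hδ]; field_simp
  have hrem : ∀ i : Fin (M + 1), ‖φ (((i : ℕ) : ℝ) * δ) -
      taylorWithinEval φ M (Icc 0 (ε / 4)) 0 (((i : ℕ) : ℝ) * δ)‖ ≤ B * ε ^ (M + 1) := by
    intro i
    refine (taylor_mean_remainder_bound hb.le hon (hpt i) hbd).trans ?_
    have h1 : (1 : ℝ) ≤ (M.factorial : ℝ) := by exact_mod_cast Nat.factorial_pos M
    have h2 : (((i : ℕ) : ℝ) * δ - 0) ^ (M + 1) ≤ ε ^ (M + 1) :=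
      pow_le_pow_left₀ (by simpa using (hpt i).1) (by linarith [(hpt i).2]) _
    refine (div_le_self (mul_nonneg hB0 (pow_nonneg (by simpa using (hpt i).1) _)) h1).trans ?_
    exact mul_le_mul_of_nonneg_left h2 hB0
  have hD1 : iteratedDerivWithin 1 φ (Icc 0 (ε / 4)) 0 = fderiv ℝ h y u := by
    have h0 : (0 : ℝ) ∈ Icc (0 : ℝ) (ε / 4) := ⟨le_rfl, hb.le⟩
    have h1 : ((1 : ℕ) : WithTop ℕ∞) ≤ (M + 1 : ℕ) := by exact_mod_cast Nat.le_add_left 1 M
    rw [iteratedDerivWithin_eq_iteratedDeriv (uniqueDiffOn_Icc hb) ((hat 0 h0).of_le h1) h0, hφ,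
      iteratedDeriv_line isOpen_ball (hh.of_le h1) y u (hmem 0 h0)]
    simp
  have hsum : ∑ i : Fin (M + 1), w i • taylorWithinEval φ M (Icc 0 (ε / 4)) 0 (((i : ℕ) : ℝ) * δ)
      = δ • fderiv ℝ h y u := by
    simp only [taylor_within_apply, Finset.smul_sum, smul_smul]
    rw [Finset.sum_comm, Finset.sum_range]
    have h1 : ∀ k : Fin (M + 1), ∑ i : Fin (M + 1),
        (w i * ((((k : ℕ).factorial : ℝ))⁻¹ * (((i : ℕ) : ℝ) * δ - 0) ^ (k : ℕ))) •
          iteratedDerivWithin k φ (Icc 0 (ε / 4)) 0 =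
        if k = ⟨1, by omega⟩ then δ • fderiv ℝ h y u else 0 := by
      intro k
      rw [← Finset.sum_smul]
      have h2 : ∑ i : Fin (M + 1),
          (w i * ((((k : ℕ).factorial : ℝ))⁻¹ * (((i : ℕ) : ℝ) * δ - 0) ^ (k : ℕ))) =
          (((k : ℕ).factorial : ℝ))⁻¹ * δ ^ (k : ℕ) * ∑ i, w i * ((i : ℕ) : ℝ) ^ (k : ℕ) := by
        rw [Finset.mul_sum]
        exact Finset.sum_congr rfl fun i _ => by rw [sub_zero, mul_pow]; ring
      rw [h2, hw k]
      by_cases hk : k = ⟨1, by omega⟩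
      · subst hk
        simp [← hD1]
      · have hk' : (k : ℕ) ≠ 1 := fun e => hk (Fin.ext e)
        simp [hk, hk']
    rw [Finset.sum_congr rfl fun k _ => h1 k]
    simp
  have hkey : δ * ‖fderiv ℝ h y u‖ ≤ W * (A + B * ε ^ (M + 1)) := by
    rw [← Real.norm_of_nonneg hδ0.le, ← norm_smul, ← hsum, hW, Finset.sum_mul]
    refine (norm_sum_le _ _).trans (Finset.sum_le_sum fun i _ => ?_)
    rw [norm_smul, Real.norm_eq_abs]
    refine mul_le_mul_of_nonneg_left ?_ (abs_nonneg _)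
    have h1 := norm_sub_norm_le (taylorWithinEval φ M (Icc 0 (ε / 4)) 0 (((i : ℕ) : ℝ) * δ))
      (φ (((i : ℕ) : ℝ) * δ))
    rw [norm_sub_rev] at h1
    have h2 : ‖φ (((i : ℕ) : ℝ) * δ)‖ ≤ A := hA _ (hmem _ (hpt i))
    linarith [hrem i]
  have h3 : ‖fderiv ℝ h y u‖ ≤ W * (A + B * ε ^ (M + 1)) / δ := by
    rw [le_div_iff₀ hδ0, mul_comm]; exact hkey
  have h4 : W * (A + B * ε ^ (M + 1)) / δ = 4 * (M + 1) * W * (A / ε + B * ε ^ M) := by
    rw [hδ]; field_simp; ring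
  rw [h4] at h3
  refine h3.trans ?_
  rw [Nat.add_sub_cancel]
  gcongr
  linarith

/-- all intermediate derivatives -/
theorem int_all (N : ℕ) : ∃ C : ℝ, 0 < C ∧
    ∀ (E F : Type) [NormedAddCommGroup E] [NormedSpace ℝ E] [NormedAddCommGroup F]
      [NormedSpace ℝ F] [CompleteSpace F] (h : E → F) (x : E) (ε A B : ℝ), 0 < ε →
      ContDiffOn ℝ N h (ball x ε) → (∀ y ∈ ball x ε, ‖h y‖ ≤ A) →
      (∀ y ∈ ball x ε, ‖iteratedFDeriv ℝ N h y‖ ≤ B) →
      ∀ j ≤ N, ∀ y ∈ ball x (ε / 2),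
        ‖iteratedFDeriv ℝ j h y‖ ≤ C * (A / ε ^ j + B * ε ^ (N - j)) := by
  induction N with
  | zero =>
    refine ⟨1, one_pos, ?_⟩
    intro E F _ _ _ _ _ h x ε A B hε hh hA hB j hj y hy
    have hB0 : 0 ≤ B := (norm_nonneg _).trans (hB x (mem_ball_self hε))
    obtain rfl : j = 0 := by omega
    have := hA y (ball_subset_ball (by linarith) hy)
    simp only [norm_iteratedFDeriv_zero, pow_zero, div_one, Nat.sub_self, mul_one, one_mul]
    linarith
  | succ M ih =>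
    obtain ⟨C2, hC2, ih⟩ := ih
    obtain ⟨C1, hC1, h1⟩ : ∃ C : ℝ, 0 < C ∧ (2 ≤ M + 1 →
        ∀ (E F : Type) [NormedAddCommGroup E] [NormedSpace ℝ E] [NormedAddCommGroup F]
        [NormedSpace ℝ F] [CompleteSpace F] (h : E → F) (x : E) (ε A B : ℝ), 0 < ε →
        ContDiffOn ℝ (M + 1 : ℕ) h (ball x ε) → (∀ y ∈ ball x ε, ‖h y‖ ≤ A) →
        (∀ y ∈ ball x ε, ‖iteratedFDeriv ℝ (M + 1) h y‖ ≤ B) →
        ∀ y ∈ ball x (ε / 2), ‖fderiv ℝ h y‖ ≤ C * (A / ε + B * ε ^ (M + 1 - 1))) := by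
      by_cases hM : 2 ≤ M + 1
      · obtain ⟨C, hC, h⟩ := int_one (M + 1) hM
        exact ⟨C, hC, fun _ => h⟩
      · exact ⟨1, one_pos, fun h => absurd h hM⟩
    refine ⟨1 + C2 * (4 ^ M * 2 * C1 + 1), by positivity, ?_⟩
    intro E F _ _ _ _ _ h x ε A B hε hh hA hB j hj y hy
    have hA0 : 0 ≤ A := (norm_nonneg _).trans (hA x (mem_ball_self hε))
    have hB0 : 0 ≤ B := (norm_nonneg _).trans (hB x (mem_ball_self hε))
    have hyx : y ∈ ball x ε := ball_subset_ball (by linarith) hy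
    have hC : (1 : ℝ) ≤ 1 + C2 * (4 ^ M * 2 * C1 + 1) := le_add_of_nonneg_right (by positivity)
    have hP : 0 ≤ A / ε ^ j := by positivity
    have hQ : 0 ≤ B * ε ^ (M + 1 - j) := by positivity
    rcases Nat.eq_zero_or_pos j with rfl | hj0
    · refine le_trans ?_ (le_mul_of_one_le_left (by positivity) hC)
      rw [norm_iteratedFDeriv_zero, pow_zero, div_one]
      linarith [hA y hyx]
    rcases hj.eq_or_lt with rfl | hjM
    · refine le_trans ?_ (le_mul_of_one_le_left (by positivity) hC)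
      rw [Nat.sub_self, pow_zero, mul_one]
      linarith [hB y hyx]
    obtain ⟨i, rfl⟩ : ∃ i, j = i + 1 := ⟨j - 1, by omega⟩
    have hsub : ball y (ε / 2) ⊆ ball x ε := by
      refine ball_subset_ball' ?_
      rw [mem_ball] at hy
      linarith
    have hsub' : ball y (ε / 2 / 2) ⊆ ball x ε :=
      (ball_subset_ball (by linarith)).trans hsub
    have h2 := h1 (by omega) E F h y (ε / 2) A B (by positivity) (hh.mono hsub)
      (fun z hz => hA z (hsub hz)) (fun z hz => hB z (hsub hz))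
    have h3 : ContDiffOn ℝ M (fderiv ℝ h) (ball y (ε / 2 / 2)) :=
      (hh.fderiv_of_isOpen isOpen_ball (by push_cast; exact le_rfl)).mono hsub'
    have h4 := ih E (E →L[ℝ] F) (fderiv ℝ h) y (ε / 2 / 2) _ B (by positivity) h3 h2
      (fun z hz => by rw [norm_iteratedFDeriv_fderiv]; exact hB z (hsub' hz)) i (by omega) y
      (mem_ball_self (by positivity))
    rw [norm_iteratedFDeriv_fderiv, Nat.add_sub_cancel] at h4
    obtain ⟨m, rfl⟩ : ∃ m, M = i + m := ⟨M - i, by omega⟩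
    rw [show i + m + 1 - (i + 1) = m by omega] at hQ ⊢
    rw [Nat.add_sub_cancel_left] at h4
    refine h4.trans ?_
    have h5 : C1 * (A / (ε / 2) + B * (ε / 2) ^ (i + m)) / (ε / 2 / 2) ^ i =
        4 ^ i * C1 * (2 * (A / ε ^ (i + 1)) + B * ε ^ m / 2 ^ (i + m)) := by
      have h4e : (4 : ℝ) ^ i = 2 ^ i * 2 ^ i := by rw [← mul_pow]; norm_num
      rw [h4e]
      simp only [div_pow]
      field_simp
      ring
    have h6 : B * ε ^ m / 2 ^ (i + m) ≤ 2 * (B * ε ^ m) :=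
      (div_le_self hQ (one_le_pow₀ (by norm_num))).trans (by linarith)
    have h7 : (4 : ℝ) ^ i ≤ 4 ^ (i + m) := pow_le_pow_right₀ (by norm_num) (by omega)
    have h8 : B * (ε / 2 / 2) ^ m ≤ B * ε ^ m := by
      gcongr
      linarith
    have h9 : 4 ^ i * C1 * (2 * (A / ε ^ (i + 1)) + B * ε ^ m / 2 ^ (i + m)) ≤
        4 ^ (i + m) * C1 * (2 * (A / ε ^ (i + 1)) + 2 * (B * ε ^ m)) := by gcongr
    rw [h5]
    calc C2 * (4 ^ i * C1 * (2 * (A / ε ^ (i + 1)) + B * ε ^ m / 2 ^ (i + m)) +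
          B * (ε / 2 / 2) ^ m)
        ≤ C2 * (4 ^ (i + m) * C1 * (2 * (A / ε ^ (i + 1)) + 2 * (B * ε ^ m)) +
          (A / ε ^ (i + 1) + B * ε ^ m)) := by
          refine mul_le_mul_of_nonneg_left (add_le_add h9 (by linarith)) hC2.le
      _ = C2 * (4 ^ (i + m) * 2 * C1 + 1) * (A / ε ^ (i + 1) + B * ε ^ m) := by ring
      _ ≤ _ := mul_le_mul_of_nonneg_right (by linarith) (by positivity)

end Crest.Agent.N221.X
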