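import Crest.Agent.N221.D.Chart
import Crest.Agent.N221.C.Lps
import Crest.Agent.N221.U.Lip
import Crest.Agent.N221.B.Mu

/-!
Row 221, block X (helper71): the Gromov product `gp y ξ η` seen from `y` is comparable with
`-log ‖W ξ y - W η y‖`; `W`, `b` are Hölder in `ξ`; the transfer function `α` is Hölder.
-/

set_option autoImplicit false
set_option linter.unusedSectionVars false
set_option linter.unusedVariables false

open MeasureTheory Set Filter Topology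
open scoped ContDiff RealInnerProductSpace ENNReal
open Crest.GeometryTopology.Submanifold
open Crest.Agent.R241.DDefs Crest.Agent.R241.D2
open Crest.Agent.R208.J Crest.Agent.R208.L

noncomputable section

namespace Crest.Agent.N221.Cov

variable {n N : ℕ} {a : ℝ} {S : Set (Euc N)} {G : Geo n N (-(a ^ 2)) S} (C : Cov G)
variable {x y ξ η : Euc n}

/-- twice the Gromov product of `ξ, η` seen from `y` -/
def gp (y ξ η : Euc n) : ℝ := C.cc ξ η + C.b ξ y + C.b η y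

lemma W_eq_of_not_GO (hξ : ξ ≠ 0) (hη : η ≠ 0) (h : (ξ, η) ∉ GO n) :
    C.W ξ = C.W η ∧ C.b ξ = C.b η := by
  have e : ‖ξ‖⁻¹ • ξ = ‖η‖⁻¹ • η := by
    by_contra e
    exact h ⟨hξ, hη, e⟩
  have p1 : 0 < ‖ξ‖⁻¹ := inv_pos.2 (norm_pos_iff.2 hξ)
  have p2 : 0 < ‖η‖⁻¹ := inv_pos.2 (norm_pos_iff.2 hη)
  exact ⟨funext fun y => by rw [← C.W_smul p1, e, C.W_smul p2],
    funext fun y => by rw [← C.b_smul p1, e, C.b_smul p2]⟩

section
variable (ha : 0 < a)
include ha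

lemma gp_nonneg (h : (ξ, η) ∈ GO n) (y : Euc n) : 0 ≤ C.gp y ξ η := by
  have := C.neg_cc_le ha h y
  unfold gp; linarith

lemma gp_lip (h : (ξ, η) ∈ GO n) (x y : Euc n) : |C.gp x ξ η - C.gp y ξ η| ≤ 2 * C.dd x y := by
  have h1 := abs_le.1 (C.abs_b_sub_le ha h.1 x y)
  have h2 := abs_le.1 (C.abs_b_sub_le ha h.2.1 x y)
  unfold gp
  rw [abs_le]; constructor <;> linarith [h1.1, h1.2, h2.1, h2.2]

lemma gp_act {g : Euc n → Euc n} (hg : C.Deck g) (h : (ξ, η) ∈ GO n) (y : Euc n) :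
    C.gp (g y) (C.act g ξ) (C.act g η) = C.gp y ξ η := by
  unfold gp
  rw [C.cc_act ha hg h, C.b_act ha hg h.1, C.b_act ha hg h.2.1]; ring

lemma gp_upper (h : (ξ, η) ∈ GO n) (y : Euc n) :
    ‖C.W ξ y - C.W η y‖ ≤ 3 * Real.exp (-(a * (C.gp y ξ η / 2))) := by
  refine BdyAux.norm_sub_le_of_inner (C.un_W ha h.1 y).norm.le (C.un_W ha h.2.1 y).norm.le
    (Real.exp_pos _).le ?_
  have h1 := C.cc_upper ha h y
  have e : Real.exp (-(a * (C.gp y ξ η / 2))) ^ 2 *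
      Real.exp (a * (C.cc ξ η + C.b ξ y + C.b η y)) = 1 := by
    rw [sq, ← Real.exp_add, ← Real.exp_add, gp]; simp; ring
  have p := Real.exp_pos (a * (C.cc ξ η + C.b ξ y + C.b η y))
  refine le_of_mul_le_mul_right ?_ p
  rw [mul_assoc, e]; linarith

lemma gp_lower0 (h : (ξ, η) ∈ GO n) (x : Euc n) (R : ℝ) :
    2 * R - C.dd (C.gd x (C.W ξ x) R) (C.gd x (C.W η x) R) ≤ C.gp x ξ η := by
  have h1 := C.neg_cc_le ha h (C.gd x (C.W ξ x) R)
  have h2 := abs_le.1 (C.abs_b_sub_le ha h.2.1 (C.gd x (C.W ξ x) R) (C.gd x (C.W η x) R))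
  rw [C.b_gd ha h.2.1] at h2
  rw [C.b_gd ha h.1] at h1
  unfold gp; linarith [h2.2]

end

variable (H : Hyp n N a S)
include H

lemma gp_lower : ∃ L K : ℝ, a ≤ L ∧ 1 ≤ K ∧ ∀ x ξ η, (ξ, η) ∈ GO n →
    Real.exp (-(L * (C.gp x ξ η / 2))) ≤ K * ‖C.W ξ x - C.W η x‖ := by
  have ha := H.a_pos
  obtain ⟨L0, hL0, hL⟩ := lipS n N _ S G H.cpt
  obtain ⟨ε, hε, hc⟩ := C.lift_close H
  set L := max L0 a with hLd
  have L1 : L0 ≤ L := le_max_left _ _
  have Lp : 0 < L := hL0.trans_le L1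
  refine ⟨L, max 1 (Real.exp (L * ε) / ε), le_max_right _ _, le_max_left _ _, fun x ξ η h => ?_⟩
  have hv : C.Un x (C.W ξ x) := C.un_W ha h.1 x
  have hw : C.Un x (C.W η x) := C.un_W ha h.2.1 x
  set δ := ‖C.W ξ x - C.W η x‖ with hδ
  have δp : 0 < δ := by
    refine norm_pos_iff.2 (sub_ne_zero.2 fun e => ?_)
    have := C.inner_W_lt ha h x
    rw [e, real_inner_self_eq_norm_sq, hw.norm] at this
    norm_num at this
  refine le_trans ?_ (mul_le_mul_of_nonneg_right (le_max_right _ _) δp.le)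
  have g0 := C.gp_nonneg ha h x
  by_cases hδε : ε ≤ δ
  · calc Real.exp (-(L * (C.gp x ξ η / 2))) ≤ 1 := Real.exp_le_one_iff.2 (by nlinarith)
      _ ≤ Real.exp (L * ε) * (δ / ε) := one_le_mul_of_one_le_of_one_le
          (Real.one_le_exp (by positivity)) ((one_le_div hε).2 hδε)
      _ = _ := by ring
  push Not at hδε
  set R := Real.log (ε / δ) / L with hR
  have l0 : 0 ≤ Real.log (ε / δ) := Real.log_nonneg ((one_le_div δp).2 hδε.le)
  have R0 : 0 ≤ R := div_nonneg l0 Lp.le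
  have eR : Real.exp (L * R) = ε / δ := by
    rw [hR, mul_div_cancel₀ _ Lp.ne', Real.exp_log (by positivity)]
  have h1 := hc ε le_rfl (C.gd x (C.W ξ x)) (C.gd x (C.W η x)) 0 R
    (C.contDiff_gd_t _ _).continuous.continuousOn (C.contDiff_gd_t _ _).continuous.continuousOn
    (by rw [C.gd_zero, C.gd_zero, C.dd_self]; positivity) (fun u hu => by
      rw [C.pr_gd hv.mem, C.pr_gd hw.mem, ← dist_eq_norm]
      have k := (hL _ hv _ hw u).1
      rw [Prod.dist_eq] at k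
      refine (le_max_left _ _).trans (k.trans ?_)
      have : dist (C.pr x, C.W ξ x) (C.pr x, C.W η x) = δ := by
        rw [Prod.dist_eq, dist_self, dist_eq_norm, max_eq_right (norm_nonneg _)]
      rw [this, abs_of_nonneg hu.1, ← le_div_iff₀ δp, ← eR]
      exact Real.exp_le_exp.2 (mul_le_mul L1 hu.2 hu.1 Lp.le)) R ⟨R0, le_rfl⟩
  have h2 := C.gp_lower0 ha h x R
  calc Real.exp (-(L * (C.gp x ξ η / 2))) ≤ Real.exp (L * ε - L * R) :=
        Real.exp_le_exp.2 (by nlinarith)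
    _ = _ := by rw [Real.exp_sub, eR]; field_simp

/-- the visual metrics are Hölder equivalent -/
theorem hol_W : ∃ θ K : ℝ, 0 < θ ∧ θ ≤ 1 ∧ 0 < K ∧ ∀ x y ξ η, ξ ≠ 0 → η ≠ 0 →
    ‖C.W ξ y - C.W η y‖ ≤ K * Real.exp (a * C.dd x y) * ‖C.W ξ x - C.W η x‖ ^ θ := by
  have ha := H.a_pos
  obtain ⟨L, K, hL, hK, h⟩ := C.gp_lower H
  have Lp : 0 < L := ha.trans_le hL
  refine ⟨a / L, 3 * K ^ (a / L), by positivity, (div_le_one Lp).2 hL, by positivity,
    fun x y ξ η hξ hη => ?_⟩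
  by_cases hG : (ξ, η) ∈ GO n
  swap
  · rw [(C.W_eq_of_not_GO hξ hη hG).1, sub_self, norm_zero]; positivity
  have h1 := Real.rpow_le_rpow (Real.exp_pos _).le (h x ξ η hG) (by positivity : 0 ≤ a / L)
  rw [← Real.exp_mul, Real.mul_rpow (by positivity) (norm_nonneg _)] at h1
  have h2 := abs_le.1 (C.gp_lip ha hG x y)
  calc _ ≤ 3 * Real.exp (-(a * (C.gp y ξ η / 2))) := C.gp_upper ha hG y
    _ ≤ 3 * (Real.exp (a * C.dd x y) * Real.exp (-(L * (C.gp x ξ η / 2)) * (a / L))) := by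
      rw [← Real.exp_add]
      gcongr
      have : -(L * (C.gp x ξ η / 2)) * (a / L) = -(a * (C.gp x ξ η / 2)) := by field_simp
      rw [this]; nlinarith [h2.2]
    _ ≤ 3 * (Real.exp (a * C.dd x y) * (K ^ (a / L) * ‖C.W ξ x - C.W η x‖ ^ (a / L))) := by gcongr
    _ = _ := by ring

/-- `W` and the Busemann cocycle are Hölder in `ξ` (same constants) -/
theorem hol_b : ∃ θ K : ℝ, 0 < θ ∧ θ ≤ 1 ∧ 0 < K ∧ ∀ x y ξ η, ξ ≠ 0 → η ≠ 0 →
    ‖C.W ξ y - C.W η y‖ ≤ K * Real.exp (a * C.dd x y) * ‖C.W ξ x - C.W η x‖ ^ θ ∧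
    |(C.b ξ y - C.b ξ x) - (C.b η y - C.b η x)| ≤
      K * Real.exp (a * C.dd x y) * ‖C.W ξ x - C.W η x‖ ^ θ * C.dd x y := by
  have ha := H.a_pos
  obtain ⟨θ, K, h0, h1, hK, h⟩ := C.hol_W H
  refine ⟨θ, K, h0, h1, hK, fun x y ξ η hξ hη => ⟨h x y ξ η hξ hη, ?_⟩⟩
  by_cases hxy : x = y
  · subst hxy; simp [C.dd_self]
  have hu := C.un_dir hxy
  have hd : ∀ t, HasDerivAt (fun t => C.b ξ (C.gd x (C.dir x y) t) - C.b η (C.gd x (C.dir x y) t))
      (-⟪C.W ξ (C.gd x (C.dir x y) t) - C.W η (C.gd x (C.dir x y) t), C.vel x (C.dir x y) t⟫) t :=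
    fun t => by
      have k1 := (C.hasFDerivAt_b ha hξ _).comp_hasDerivAt t (C.hasDerivAt_gd x (C.dir x y) t)
      have k2 := (C.hasFDerivAt_b ha hη _).comp_hasDerivAt t (C.hasDerivAt_gd x (C.dir x y) t)
      refine (k1.sub k2).congr_deriv ?_
      simp [C.fderiv_pr_deriv_gd hu.mem, inner_sub_left]; ring
  have := norm_image_sub_le_of_norm_deriv_le_segment' (a := 0) (b := C.dd x y)
    (C := K * Real.exp (a * C.dd x y) * ‖C.W ξ x - C.W η x‖ ^ θ)
    (fun t _ => (hd t).hasDerivWithinAt) (fun t ht => by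
      rw [norm_neg]
      refine (norm_inner_le_norm _ _).trans ?_
      rw [(Un.vel C hu t).norm, mul_one]
      refine (h x _ ξ η hξ hη).trans ?_
      rw [Un.dd_gd_zero C hu, abs_of_nonneg ht.1]
      gcongr
      exact ht.2.le) (C.dd x y) ⟨C.dd_nonneg _ _, le_rfl⟩
  rw [C.gd_dir, C.gd_zero, sub_zero, Real.norm_eq_abs] at this
  convert this using 2; ring

include C in
/-- the transfer function is Hölder -/
theorem hol_al (hHol : UHolS) {h : ℝ} {α : TT N → ℝ} (hα : ContinuousOn α (US G))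
    (e : ∀ z ∈ US G, ∀ t : ℝ, St G t z - h * t = α z - α (ph G t z)) :
    ∃ θ K : ℝ, 0 < θ ∧ θ ≤ 1 ∧ 0 < K ∧ ∀ z ∈ US G, ∀ w ∈ US G, |α z - α w| ≤ K * dist z w ^ θ := by
  have ha := H.a_pos
  have hK0 := isCompact_US G H.cpt
  obtain ⟨r0, hr0, -, h1⟩ := C.exists_r0 H
  obtain ⟨η₀, K, hη₀, hK, h2⟩ := C.join H
  obtain ⟨K1, hK1, h3⟩ := Lps.up_exp C H
  obtain ⟨θ0, K2, hθ0, hK2, h4⟩ := shadow (G := G) H hHol
  obtain ⟨-, B, hB, h5⟩ := St_basic (G := G) H hHol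
  obtain ⟨M, hM⟩ := hK0.exists_bound_of_continuousOn hα
  have uc := hK0.uniformContinuousOn_of_continuous hα
  -- asymptotic orbits
  have key : ∀ z ∈ US G, ∀ w ∈ US G, ∀ (s ρ c : ℝ), 0 ≤ ρ →
      (∀ t, 0 ≤ t → dist (fl G (z, s * t)) (fl G (w, s * t)) ≤ ρ * Real.exp (-(a * t))) →
      (∀ t, 0 ≤ t → |St G (s * t) z - St G (s * t) w| ≤ c) → |α z - α w| ≤ c := by
    intro z hz w hw s ρ c hρ d1 d2
    refine le_of_forall_pos_le_add fun ε hε => ?_
    obtain ⟨δ, hδ, hu⟩ := Metric.uniformContinuousOn_iff.1 uc ε hε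
    have hl : Tendsto (fun t => ρ * Real.exp (-(a * t))) atTop (𝓝 0) := by
      simpa using (Real.tendsto_exp_neg_atTop_nhds_zero.comp
        (tendsto_id.const_mul_atTop ha)).const_mul ρ
    obtain ⟨t, t1, t0⟩ := ((hl.eventually (gt_mem_nhds hδ)).and (eventually_ge_atTop 0)).exists
    have k1 := hu _ (fl_US hz (s * t)) _ (fl_US hw (s * t)) ((d1 t t0).trans_lt t1)
    have k2 := e z hz (s * t)
    have k3 := e w hw (s * t)
    have k4 := abs_le.1 (d2 t t0)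
    rw [Real.dist_eq, abs_lt] at k1
    unfold ph at k2 k3
    rw [abs_le]; constructor <;> linarith [k1.1, k1.2, k4.1, k4.2]
  have sh : ∀ z ∈ US G, ∀ r, |α z - α (fl G (z, r))| ≤ (B + |h|) * |r| := fun z hz r => by
    have := e z hz r
    unfold ph at this
    rw [← this, add_mul, ← abs_mul]
    exact (abs_sub _ _).trans (by gcongr; exact h5 z hz r)
  set θ := min θ0 1 with hθ
  have θp : 0 < θ := lt_min hθ0 one_pos
  set δ := min (min r0 (η₀ / 2)) (min 1 (1 / (K1 * (K * 2)))) with hδ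
  have δp : 0 < δ := by positivity
  have M0 : 0 ≤ M := by
    obtain ⟨q, hq⟩ : (US G).Nonempty := (muS n N a S G H).2.1.nonempty
    exact (norm_nonneg _).trans (hM q hq)
  refine ⟨θ, 2 * (K2 * (K1 * (K * 2)) ^ θ) + 2 * ((B + |h|) * (K * 2)) + 2 * M / δ ^ θ, θp,
    min_le_right _ _, by positivity, fun q hq q' hq' => ?_⟩
  set η := dist q q' with hη
  have η0 : 0 ≤ η := dist_nonneg
  have pw : 0 ≤ η ^ θ := by positivity
  by_cases hd : δ ≤ η
  · have k1 : |α q - α q'| ≤ 2 * M := by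
      have := hM q hq; have := hM q' hq'
      refine (abs_sub _ _).trans ?_
      simp only [Real.norm_eq_abs] at *; linarith
    have k2 : 2 * M ≤ 2 * M / δ ^ θ * η ^ θ := by
      rw [div_mul_eq_mul_div, le_div_iff₀ (by positivity)]
      gcongr
    have : 0 ≤ (2 * (K2 * (K1 * (K * 2)) ^ θ) + 2 * ((B + |h|) * (K * 2))) * η ^ θ := by positivity
    nlinarith
  push Not at hd
  have e1 : η ≤ r0 := hd.le.trans ((min_le_left _ _).trans (min_le_left _ _))
  have e2 : η ≤ η₀ / 2 := hd.le.trans ((min_le_left _ _).trans (min_le_right _ _))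
  have e3 : η ≤ 1 := hd.le.trans ((min_le_right _ _).trans (min_le_left _ _))
  have e4 : η ≤ 1 / (K1 * (K * 2)) := hd.le.trans ((min_le_right _ _).trans (min_le_right _ _))
  obtain ⟨x, hx, hv⟩ := C.exists_un hq
  have d1 : ‖C.pr x - q'.1‖ ≤ η := by
    rw [hx, ← dist_eq_norm, hη, Prod.dist_eq]; exact le_max_left _ _
  have d2 : ‖q.2 - q'.2‖ ≤ η := by
    rw [← dist_eq_norm, hη, Prod.dist_eq]; exact le_max_right _ _
  obtain ⟨y, hy, hxy⟩ := h1 x q'.1 hq'.1.1 (d1.trans e1)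
  have hw : C.Un y q'.2 := by rw [Un, hy]; exact hq'
  obtain ⟨m, u, r, r', hu, b1, b2, b3, b4⟩ := h2 x q.2 y q'.2 hv hw (2 * η) (by linarith)
    (by linarith) (by linarith)
  have ρ0 : 0 ≤ K * (2 * η) := by positivity
  have c1 := h3 m u x q.2 hu hv 1 r _ (Or.inl rfl) ρ0 (by simpa only [one_mul] using b3)
  have c2 := h3 m u y q'.2 hu hw (-1) r' _ (Or.inr rfl) ρ0 (by simpa only [neg_one_mul] using b4)
  simp only [hx, hy, Prod.mk.eta] at c1 c2
  have c1' : ∀ t, 0 ≤ t → dist (fl G ((C.pr m, u), 1 * t)) (fl G (fl G (q, r), 1 * t)) ≤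
      K1 * (K * (2 * η)) * Real.exp (-(a * t)) := fun t ht => by
    rw [← fl_add' G hq.1, add_comm]; exact c1 t ht
  have c2' : ∀ t, 0 ≤ t → dist (fl G ((C.pr m, u), -1 * t)) (fl G (fl G (q', r'), -1 * t)) ≤
      K1 * (K * (2 * η)) * Real.exp (-(a * t)) := fun t ht => by
    rw [← fl_add' G hq'.1, add_comm]; exact c2 t ht
  have ρ1 : 0 ≤ K1 * (K * (2 * η)) := by positivity
  have k1 := key _ hu _ (fl_US hq r) 1 _ _ ρ1 c1' fun t ht => by
    rw [one_mul]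
    exact (h4 _ hu _ (fl_US hq r) _ t ρ1 ht).1 fun s hs => by simpa using c1' s hs.1
  have k2 := key _ hu _ (fl_US hq' r') (-1) _ _ ρ1 c2' fun t ht => by
    rw [neg_one_mul]
    exact (h4 _ hu _ (fl_US hq' r') _ t ρ1 ht).2.2 fun s hs => by simpa using c2' s hs.1
  have k3 : (K1 * (K * (2 * η))) ^ θ0 ≤ (K1 * (K * 2)) ^ θ * η ^ θ := by
    rw [← Real.mul_rpow (by positivity) η0]
    have : K1 * (K * (2 * η)) = K1 * (K * 2) * η := by ring
    rw [this]
    refine Real.rpow_le_rpow_of_exponent_ge' (by positivity) ?_ θp.le (min_le_left _ _)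
    rwa [le_div_iff₀' (by positivity)] at e4
  have k4 : η ≤ η ^ θ := by
    simpa using Real.rpow_le_rpow_of_exponent_ge' η0 e3 θp.le (min_le_right θ0 1)
  have k5 := (sh q hq r).trans (mul_le_mul_of_nonneg_left b1 (by positivity))
  have k6 := (sh q' hq' r').trans (mul_le_mul_of_nonneg_left b2 (by positivity))
  have k7 : (B + |h|) * (K * (2 * η)) ≤ (B + |h|) * (K * 2) * η ^ θ := by
    calc _ = (B + |h|) * (K * 2) * η := by ring
      _ ≤ _ := by gcongr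
  have k8 : K2 * (K1 * (K * (2 * η))) ^ θ0 ≤ K2 * (K1 * (K * 2)) ^ θ * η ^ θ := by
    rw [mul_assoc]; gcongr
  have k9 : 0 ≤ 2 * M / δ ^ θ * η ^ θ := by positivity
  rw [abs_le] at k1 k2 k5 k6 ⊢
  constructor <;> nlinarith [k1.1, k1.2, k2.1, k2.2, k5.1, k5.2, k6.1, k6.2]

end Crest.Agent.N221.Cov
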