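import Crest.Agent.N221.A
import Crest.Agent.N221.C.Loc
import Crest.Agent.N221.D.Bas

/-! Row 221, block X: from local smoothness of `U` to `Sm`. -/

set_option autoImplicit false

open Set Filter Topology
open scoped ContDiff RealInnerProductSpace
open Crest.GeometryTopology.Submanifold
open Crest.Agent.R241.DDefs Crest.Agent.R241.D2
open Crest.Agent.R208.J Crest.Agent.R208.L

namespace Crest.Agent.N221.X

variable {n N : ℕ} {a : ℝ} {S : Set (Euc N)} {G : Geo n N (-(a ^ 2)) S}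

namespace Loc

/-- a submersion has a smooth local right inverse -/
theorem rinv {E F : Type*} [NormedAddCommGroup E] [NormedSpace ℝ E] [NormedAddCommGroup F]
    [NormedSpace ℝ F] [FiniteDimensional ℝ F] {Θ : E → F} {z : E}
    (hΘ : ∀ᶠ w in 𝓝 z, ContDiffAt ℝ ∞ Θ w) (hs : Function.Surjective (fderiv ℝ Θ z)) :
    ∃ σ : F → E, σ (Θ z) = z ∧ ∀ᶠ y in 𝓝 (Θ z), ContDiffAt ℝ ∞ σ y ∧ Θ (σ y) = y := by
  haveI := FiniteDimensional.complete ℝ F
  have hn : (∞ : WithTop ℕ∞) ≠ 0 := by simp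
  obtain ⟨R0, hR⟩ := (fderiv ℝ Θ z).toLinearMap.exists_rightInverse_of_surjective
    (LinearMap.range_eq_top.2 hs)
  set R := LinearMap.toContinuousLinearMap R0
  have c1 : ContDiff ℝ ∞ fun u => z + R u := contDiff_const.add R.contDiff
  have z0 : z + R 0 = z := by simp
  have hg : ∀ᶠ u in 𝓝 (0 : F), ContDiffAt ℝ ∞ (fun u => Θ (z + R u)) u := by
    have := c1.continuous.tendsto 0
    rw [z0] at this
    filter_upwards [this.eventually hΘ] with u hu using hu.comp u c1.contDiffAt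
  have hg0 := hg.self_of_nhds
  have hd : HasFDerivAt (fun u => Θ (z + R u)) (ContinuousLinearEquiv.refl ℝ F : F →L[ℝ] F) 0 := by
    have h1 : HasFDerivAt Θ (fderiv ℝ Θ z) (z + R 0) := by
      rw [z0]; exact (hΘ.self_of_nhds.differentiableAt hn).hasFDerivAt
    exact (h1.comp 0 (R.hasFDerivAt.const_add z)).congr_fderiv
      (ContinuousLinearMap.ext fun v => LinearMap.congr_fun hR v)
  set Φ := hg0.toOpenPartialHomeomorph _ hd hn
  have h0 : (0 : F) ∈ Φ.source := hg0.mem_toOpenPartialHomeomorph_source hd hn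
  have e0 : Θ z = Φ 0 := congrArg Θ z0.symm
  rw [e0]
  refine ⟨fun y => z + R (Φ.symm y), by simp only [Φ.left_inv h0, z0], ?_⟩
  have hu : ∀ᶠ u in 𝓝 (0 : F), IsUnit (fderiv ℝ (fun u => Θ (z + R u)) u) :=
    (hg0.continuousAt_fderiv hn).eventually (Units.isOpen.mem_nhds (by
      rw [mem_setOf_eq, hd.fderiv]; exact isUnit_one))
  have ht := Φ.tendsto_symm h0
  filter_upwards [ht.eventually hu, ht.eventually hg, Φ.open_target.mem_nhds (Φ.map_source h0)]
    with y ⟨u, hu⟩ h2 h3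
  refine ⟨c1.contDiffAt.comp y (Φ.contDiffAt_symm (f₀' := ContinuousLinearEquiv.ofUnit u) h3 ?_ h2),
    Φ.right_inv h3⟩
  have h5 : (ContinuousLinearEquiv.ofUnit u : F →L[ℝ] F) =
      fderiv ℝ (fun u => Θ (z + R u)) (Φ.symm y) := by rw [← hu]; rfl
  rw [h5]
  exact (h2.differentiableAt hn).hasFDerivAt

/-- `Pv q` is injective on nearby unit tangent vectors at a nearby point -/
theorem Pv_inj {q : TT N} (hq : q ∈ US G) {p w w' : Euc N} (hw : (p, w) ∈ US G) (hw' : (p, w') ∈ US G)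
    (h1 : ‖G.P p - G.P q.1‖ ≤ 1 / 4) (h2 : ‖w - q.2‖ ≤ 1 / 4) (h3 : ‖w' - q.2‖ ≤ 1 / 4)
    (e : Pv G q w = Pv G q w') : w = w' := by
  have d1 : G.P p (w - w') = w - w' := (P_eq_self G hw.1.1).1 ((G.T p).sub_mem hw.1.2 hw'.1.2)
  have d2 : G.P q.1 (w - w') = ⟪q.2, w - w'⟫ • q.2 := by
    rw [← sub_eq_zero, ← Pv_apply, map_sub, e, sub_self]
  have n1 : ‖w‖ = 1 := hw.2
  have n2 : ‖w'‖ = 1 := hw'.2
  have n3 : ‖q.2‖ = 1 := hq.2
  have d3 : 2 * ⟪q.2, w - w'⟫ = -(⟪w - q.2, w - w'⟫ + ⟪w' - q.2, w - w'⟫) := by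
    simp only [inner_sub_left, inner_sub_right, real_inner_self_eq_norm_sq, n1, n2, real_inner_comm w w']
    ring
  have b1 := abs_le.1 (abs_real_inner_le_norm (w - q.2) (w - w'))
  have b2 := abs_le.1 (abs_real_inner_le_norm (w' - q.2) (w - w'))
  have d0 := norm_nonneg (w - w')
  have b3 : |⟪q.2, w - w'⟫| ≤ 1 / 4 * ‖w - w'‖ := abs_le.2 ⟨by nlinarith, by nlinarith⟩
  have b4 : ‖w - w'‖ ≤ 1 / 4 * ‖w - w'‖ + 1 / 4 * ‖w - w'‖ :=
    calc ‖w - w'‖ = ‖(G.P p - G.P q.1) (w - w') + ⟪q.2, w - w'⟫ • q.2‖ := by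
          rw [ContinuousLinearMap.sub_apply, d1, d2, sub_add_cancel]
      _ ≤ _ := (norm_add_le _ _).trans (add_le_add
          ((ContinuousLinearMap.le_opNorm _ _).trans (mul_le_mul_of_nonneg_right h1 d0))
          (by rwa [norm_smul, n3, mul_one]))
  exact sub_eq_zero.1 (norm_le_zero_iff.1 (by linarith))

end Loc

set_option linter.unusedVariables false in
/-- local smooth extensions give a global one -/
theorem sm_of_local (H : Hyp n N a S) (h : ∀ q ∈ US G, ∃ (O : Set (TT N)) (V : TT N → Op N),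
    IsOpen O ∧ q ∈ O ∧ ContDiffOn ℝ ∞ V O ∧ EqOn V (U G) (O ∩ US G)) : Sm G := by
  obtain ⟨φ, hφ⟩ := exists_contMDiffMap_forall_mem_convex_of_local (n := ⊤) (modelWithCornersSelf ℝ (TT N))
    (t := fun y => {v : Op N | y ∈ US G → v = U G y})
    (fun y a ha b hb s t _ _ hst hy => by
      rw [ha hy, hb hy, ← add_smul, hst, one_smul]) fun y => by
    by_cases hy : y ∈ US G
    · obtain ⟨O, V, h1, h2, h3, h4⟩ := h y hy
      exact ⟨O, h1.mem_nhds h2, V, contMDiffOn_iff_contDiffOn.2 h3, fun z hz hz' => h4 ⟨hz, hz'⟩⟩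
    · exact ⟨_, (isCompact_US G H.cpt).isClosed.isOpen_compl.mem_nhds hy, fun _ => 0,
        contMDiffOn_const, fun z hz hz' => (hz hz').elim⟩
  exact ⟨φ, φ.contMDiff.contDiff, fun p hp => hφ p hp⟩

/-- smoothness read in any smooth local parametrisation `(X, V)` of the unit tangent bundle of
the cover whose differential is onto -/
theorem sm_of_param (H : Hyp n N a S) (C : Cov G)
    (h : ∀ x v, C.Un x v → ∃ (d : ℕ) (O : Set (Euc d)) (z : Euc d) (X : Euc d → Euc n)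
      (V : Euc d → Euc N), IsOpen O ∧ z ∈ O ∧ X z = x ∧ V z = v ∧ ContDiffOn ℝ ∞ X O ∧
      ContDiffOn ℝ ∞ V O ∧ (∀ w ∈ O, C.Un (X w) (V w)) ∧
      (∀ e, ∀ k ∈ Vp G (C.pr x, v), ∃ δ, fderiv ℝ X z δ = e ∧
        G.P (C.pr x) (fderiv ℝ V z δ) = k) ∧
      ContDiffOn ℝ ∞ (fun w => U G (C.pr (X w), V w)) O) : Sm G := by
  refine sm_of_local H fun q hq => ?_
  obtain ⟨p0, v⟩ := q
  obtain ⟨x, rfl, hx⟩ : ∃ x, C.pr x = p0 ∧ C.Un x v := C.exists_un hq
  obtain ⟨d, O, z, X, V, hO, hz, rfl, rfl, hX, hV, hU, hs, hf⟩ := h x v hx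
  have hn : (∞ : WithTop ℕ∞) ≠ 0 := by simp
  set q : TT N := (C.pr (X z), V z) with hqd
  obtain ⟨A0, hA⟩ := (fderiv ℝ C.pr (X z)).toLinearMap.exists_leftInverse_of_injective
    (LinearMap.ker_eq_bot.2 (C.fderiv_pr_inj _))
  set A := LinearMap.toContinuousLinearMap A0
  set B : Euc N →L[ℝ] Vp G q := (Pv G q).codRestrict _ (Pv_mem hq.1 hq.2)
  have hAp : HasStrictFDerivAt (fun y => A (C.pr y))
      (ContinuousLinearEquiv.refl ℝ (Euc n) : Euc n →L[ℝ] Euc n) (X z) :=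
    (A.hasStrictFDerivAt.comp _ (C.pr_smooth.contDiffAt.hasStrictFDerivAt hn)).congr_fderiv
      (ContinuousLinearMap.ext fun v => LinearMap.congr_fun hA v)
  have hO' := hO.mem_nhds hz
  have dX := ((hX.contDiffAt hO').differentiableAt hn).hasFDerivAt
  have dV := ((hV.contDiffAt hO').differentiableAt hn).hasFDerivAt
  obtain ⟨σ, s0, hσ⟩ := Loc.rinv (Θ := fun w => (A (C.pr (X w)), B (V w))) (z := z)
    (by
      filter_upwards [hO'] with w hw
      exact ((A.contDiff.comp C.pr_smooth).contDiffAt.comp w (hX.contDiffAt (hO.mem_nhds hw))).prodMk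
        (B.contDiff.contDiffAt.comp w (hV.contDiffAt (hO.mem_nhds hw))))
    (by
      rintro ⟨e, k, hk⟩
      obtain ⟨δ, h1, h2⟩ := hs e k hk
      refine ⟨δ, ?_⟩
      have hd : HasFDerivAt (fun w => (A (C.pr (X w)), B (V w))) _ z :=
        (hAp.hasFDerivAt.comp z dX).prodMk (B.hasFDerivAt.comp z dV)
      rw [hd.fderiv]
      refine Prod.ext h1 (Subtype.ext ?_)
      change Pv G q (fderiv ℝ V z δ) = k
      rw [← Pv_of_mem hq.1 hk, ← h2, Pv_apply, Pv_apply, P_idem G hq.1.1, ← inner_P_left G hq.1.1,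
        (P_eq_self G hq.1.1).1 hq.1.2])
  obtain ⟨R, r1, r2, -, r3⟩ := R208.local_inverse H.sub (Φ := C.pr) (v₀ := X z)
    C.pr_smooth.contDiffAt (.of_forall C.pr_mem) (C.fderiv_pr_inj _)
  have c1 : ContDiff ℝ ∞ fun y : TT N => (A y.1, B y.2) :=
    (A.contDiff.comp contDiff_fst).prodMk (B.contDiff.comp contDiff_snd)
  have t1 : Tendsto (fun y : TT N => (A y.1, B y.2)) (𝓝 q) (𝓝 (A (C.pr (X z)), B (V z))) :=
    c1.continuous.tendsto q
  have t2 : Tendsto (fun y : TT N => σ (A y.1, B y.2)) (𝓝 q) (𝓝 z) := by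
    have := hσ.self_of_nhds.1.continuousAt.tendsto.comp t1
    rwa [s0] at this
  have t3 : Tendsto (fun y : TT N => y.1) (𝓝 q) (𝓝 (C.pr (X z))) := continuous_fst.tendsto q
  have t4 : Tendsto (fun y : TT N => R y.1) (𝓝 q) (𝓝 (X z)) := by
    have := r1.continuousAt.tendsto.comp t3
    rwa [r2] at this
  have small : ∀ {E : Type} [NormedAddCommGroup E] {f : TT N → E} {c : E}, Tendsto f (𝓝 q) (𝓝 c) →
      ∀ᶠ y in 𝓝 q, ‖f y - c‖ ≤ 1 / 4 := fun hf =>
    (tendsto_iff_norm_sub_tendsto_zero.1 hf).eventually (ge_mem_nhds (by norm_num))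
  have key : ∀ᶠ y in 𝓝 q, ContDiffAt ℝ ∞ (fun y : TT N =>
      U G (C.pr (X (σ (A y.1, B y.2))), V (σ (A y.1, B y.2)))) y ∧
      (y ∈ US G → (C.pr (X (σ (A y.1, B y.2))), V (σ (A y.1, B y.2))) = y) := by
    filter_upwards [t1.eventually hσ, t2.eventually hO', t4.eventually hAp.eventually_left_inverse,
      (dX.continuousAt.tendsto.comp t2).eventually hAp.eventually_left_inverse,
      t3.eventually (eventually_nhdsWithin_iff.1 r3),
      small ((G.contDiff_P.continuous.tendsto _).comp t3), small (continuous_snd.tendsto q),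
      small (dV.continuousAt.tendsto.comp t2)] with y y1 y2 y3 y4 y5 y6 y7 y8
    refine ⟨ContDiffAt.comp (f := fun y : TT N => σ (A y.1, B y.2)) (g := fun w => U G (C.pr (X w), V w)) y
      (hf.contDiffAt (hO.mem_nhds y2)) (y1.1.comp y c1.contDiffAt), fun hy => ?_⟩
    obtain ⟨e1, e2⟩ := Prod.ext_iff.1 y1.2
    have e3 : C.pr (X (σ (A y.1, B y.2))) = y.1 := by
      simp only [Function.comp_apply] at y4 e1
      rw [y5 hy.1.1] at y3
      rw [e1, y3] at y4
      rw [← y4, y5 hy.1.1]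
    have e4 := hU _ y2
    rw [Cov.Un, e3] at e4
    exact Prod.ext e3 (Loc.Pv_inj hq e4 hy y6 y8 y7 (congrArg Subtype.val e2))
  obtain ⟨W, w1, w2, w3⟩ := eventually_nhds_iff.1 key
  exact ⟨W, _, w2, w3, fun y hy => (w1 y hy).1.contDiffWithinAt,
    fun y hy => congrArg (U G) ((w1 y hy.1).2 hy.2)⟩

end Crest.Agent.N221.X
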