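import Crest.Agent.N221.X.Int

/-! Row 221, block X: a function that is well approximated by smooth functions at every scale is
smooth (Campanato; converse of Taylor's theorem). -/

set_option autoImplicit false

open Set Metric
open scoped ContDiff

namespace Crest.Agent.N221.X

variable {E F : Type} [NormedAddCommGroup E] [NormedSpace ℝ E] [NormedAddCommGroup F]
  [NormedSpace ℝ F]

/-- approximation of order `p` at every scale near `x₀` -/
def Apx (p : ℕ) (f : E → F) (x₀ : E) : Prop := ∃ (N : ℕ) (C r : ℝ), 0 < r ∧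
  ∀ x ∈ ball x₀ r, ∀ ε : ℝ, 0 < ε → ε < r → ∃ g : E → F, ContDiffOn ℝ N g (ball x ε) ∧
    ∀ y ∈ ball x ε, ‖f y - g y‖ ≤ C * ε ^ p ∧ ‖iteratedFDeriv ℝ N g y‖ * ε ^ N ≤ C * ε ^ p

lemma Apx.continuousAt {p : ℕ} {f : E → F} {x₀ : E} (h : Apx (p + 1) f x₀) :
    ∀ᶠ x in nhds x₀, ContinuousAt f x := by
  obtain ⟨N, C, r, hr, h⟩ := h
  filter_upwards [ball_mem_nhds x₀ hr] with x hx
  refine Metric.continuousAt_iff'.2 fun η hη => ?_
  have h1 : Filter.Tendsto (fun ε : ℝ => C * ε ^ (p + 1)) (nhds 0) (nhds 0) :=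
    Continuous.tendsto' (by fun_prop) _ _ (by simp)
  obtain ⟨ε, ⟨h2, h3⟩, h4⟩ := ((((h1.eventually (gt_mem_nhds (by positivity : 0 < η / 3))).and
    (gt_mem_nhds hr)).filter_mono nhdsWithin_le_nhds).and (self_mem_nhdsWithin (s := Ioi 0))).exists
  obtain ⟨g, g1, g2⟩ := h x hx ε h4 h3
  have h5 := g1.continuousOn.continuousAt (ball_mem_nhds x h4)
  filter_upwards [ball_mem_nhds x h4, Metric.continuousAt_iff'.1 h5 (η / 3) (by positivity)] with y a b
  have c := dist_triangle4 (f y) (g y) (g x) (f x)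
  rw [dist_comm (g x), dist_eq_norm (f y) (g y), dist_eq_norm (f x) (g x)] at c
  linarith [(g2 y a).1, (g2 x (mem_ball_self h4)).1]

lemma Apx.congr {p : ℕ} {f f' : E → F} {x₀ : E} (h : Apx p f x₀) (e : f =ᶠ[nhds x₀] f') :
    Apx p f' x₀ := by
  obtain ⟨N, C, r, hr, h⟩ := h
  obtain ⟨δ, hδ, e⟩ := Metric.eventually_nhds_iff_ball.1 e
  refine ⟨N, C, min r (δ / 2), by positivity, fun x hx ε h0 h1 => ?_⟩
  obtain ⟨g, g1, g2⟩ := h x (ball_subset_ball (min_le_left _ _) hx) ε h0 (h1.trans_le (min_le_left _ _))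
  refine ⟨g, g1, fun y hy => e y ?_ ▸ g2 y hy⟩
  rw [mem_ball] at *
  linarith [dist_triangle y x x₀, min_le_right r (δ / 2)]

lemma Apx.pos {p : ℕ} {f : E → F} {x₀ : E} (h : Apx p f x₀) : ∃ (M : ℕ) (C r : ℝ), 0 < r ∧ 0 ≤ C ∧
    ∃ g : E → ℝ → E → F, ∀ x ∈ ball x₀ r, ∀ ε : ℝ, 0 < ε → ε < r →
      ContDiffOn ℝ (M + 1 : ℕ) (g x ε) (ball x ε) ∧ ∀ y ∈ ball x ε, ‖f y - g x ε y‖ ≤ C * ε ^ p ∧
        ‖iteratedFDeriv ℝ (M + 1) (g x ε) y‖ * ε ^ (M + 1) ≤ C * ε ^ p := by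
  obtain ⟨N, C, r, hr, h⟩ := h
  have hC : 0 ≤ C := by
    obtain ⟨g, -, g2⟩ := h x₀ (mem_ball_self hr) (r / 2) (half_pos hr) (half_lt_self hr)
    exact nonneg_of_mul_nonneg_left ((norm_nonneg _).trans (g2 x₀ (mem_ball_self (half_pos hr))).1)
      (pow_pos (half_pos hr) p)
  cases N with
  | zero =>
    refine ⟨0, 2 * C, r, hr, by positivity, fun _ _ _ => 0, fun x hx ε h0 h1 =>
      ⟨contDiffOn_const, fun y hy => ⟨?_, ?_⟩⟩⟩
    · obtain ⟨g, -, g2⟩ := h x hx ε h0 h1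
      obtain ⟨a, b⟩ := g2 y hy
      rw [norm_iteratedFDeriv_zero, pow_zero, mul_one] at b
      rw [sub_zero]
      linarith [norm_le_norm_sub_add (f y) (g y)]
    · rw [iteratedFDeriv_fun_zero, Pi.zero_apply, norm_zero, zero_mul]
      positivity
  | succ M =>
    choose! g hg using h
    exact ⟨M, C, r, hr, hC, g, hg⟩

omit [NormedSpace ℝ F] in
lemma lim_of_scales [CompleteSpace F] {a : ℝ → F} {r K : ℝ} {p : ℕ} (hr : 0 < r) (hK : 0 ≤ K)
    (h : ∀ ε ε', 0 < ε' → ε' ≤ ε → ε ≤ 2 * ε' → ε < r → ‖a ε - a ε'‖ ≤ K * ε ^ (p + 1)) :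
    ∃ L, ∀ ε, 0 < ε → ε < r → ‖a ε - L‖ ≤ 2 * K * ε ^ (p + 1) := by
  have h1 : ∀ j : ℕ, ∀ ε ε', 0 < ε' → ε' ≤ ε → ε ≤ 2 ^ j * ε' → ε < r →
      ‖a ε - a ε'‖ ≤ 2 * K * ε ^ (p + 1) := by
    intro j
    induction j with
    | zero =>
      intro ε ε' a0 a1 a2 a3
      have := pow_pos (a0.trans_le a1) (p + 1)
      exact (h ε ε' a0 a1 (by linarith) a3).trans (by nlinarith)
    | succ j ih =>
      intro ε ε' a0 a1 a2 a3
      have a4 := pow_pos (a0.trans_le a1) (p + 1)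
      rcases le_total ε (2 * ε') with b | b
      · exact (h ε ε' a0 a1 b a3).trans (by nlinarith)
      · have b1 := h ε (ε / 2) (by linarith) (by linarith) (by linarith) a3
        have b2 := ih (ε / 2) ε' a0 (by linarith) (by rw [pow_succ] at a2; linarith) (by linarith)
        have b3 : (ε / 2) ^ (p + 1) ≤ ε ^ (p + 1) / 2 := by
          rw [div_pow]
          exact div_le_div_of_nonneg_left a4.le two_pos (le_self_pow₀ one_le_two p.succ_ne_zero)
        nlinarith [norm_sub_le_norm_sub_add_norm_sub (a ε) (a (ε / 2)) (a ε')]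
  have h2 : ∀ ε ε', 0 < ε' → ε' ≤ ε → ε < r → ‖a ε - a ε'‖ ≤ 2 * K * ε ^ (p + 1) :=
    fun ε ε' a0 a1 a3 => by
      obtain ⟨j, hj⟩ := pow_unbounded_of_one_lt (ε / ε') (one_lt_two (α := ℝ))
      exact h1 j ε ε' a0 a1 ((div_le_iff₀ a0).1 hj.le) a3
  have h3 : Filter.Tendsto (fun n : ℕ => r / 2 * (1 / 2) ^ n) Filter.atTop (nhds 0) := by
    simpa using (tendsto_pow_atTop_nhds_zero_of_lt_one (r := (1 / 2 : ℝ)) (by norm_num)
      (by norm_num)).const_mul (r / 2)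
  obtain ⟨L, hL⟩ := cauchySeq_tendsto_of_complete (cauchySeq_of_le_tendsto_0'
    (s := fun n : ℕ => a (r / 2 * (1 / 2) ^ n)) (fun n => 2 * K * (r / 2 * (1 / 2) ^ n) ^ (p + 1))
    (fun n m hnm => by
      rw [dist_eq_norm]
      refine h2 _ _ (by positivity) (mul_le_mul_of_nonneg_left
        (pow_le_pow_of_le_one (by norm_num) (by norm_num) hnm) (by positivity)) ?_
      exact (mul_le_of_le_one_right (by positivity)
        (pow_le_one₀ (by norm_num) (by norm_num))).trans_lt (half_lt_self hr))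
    (by simpa using (h3.pow (p + 1)).const_mul (2 * K)))
  refine ⟨L, fun ε a0 a1 => le_of_tendsto (tendsto_const_nhds.sub hL).norm ?_⟩
  filter_upwards [h3.eventually (ge_mem_nhds a0)] with n hn
  exact h2 _ _ (by positivity) hn a1

lemma Apx.fderiv [CompleteSpace F] {p : ℕ} {f : E → F} {x₀ : E} (h : Apx (p + 2) f x₀) :
    (∀ᶠ x in nhds x₀, DifferentiableAt ℝ f x) ∧ Apx (p + 1) (fderiv ℝ f) x₀ := by
  obtain ⟨M, C, r, hr, hC, g, hg⟩ := h.pos
  obtain ⟨C0, c0, hI⟩ := int_all (M + 1)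
  have gd : ∀ x ∈ ball x₀ r, ∀ ε, 0 < ε → ε < r → ∀ y ∈ ball x ε,
      ContDiffAt ℝ (M + 1 : ℕ) (g x ε) y := fun x hx ε a b y hy =>
    (hg x hx ε a b).1.contDiffAt (isOpen_ball.mem_nhds hy)
  have gd' : ∀ x ∈ ball x₀ r, ∀ ε, 0 < ε → ε < r → ∀ y ∈ ball x ε, DifferentiableAt ℝ (g x ε) y :=
    fun x hx ε a b y hy => (gd x hx ε a b y hy).differentiableAt (by simp)
  obtain ⟨K, k0, hK⟩ : ∃ K, 0 ≤ K ∧ ∀ x ∈ ball x₀ r, ∀ y ∈ ball x₀ r, ∀ ε ε', 0 < ε' → ε' ≤ ε →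
      ε ≤ 2 * ε' → ε < r → ball y ε' ⊆ ball x ε →
      ‖_root_.fderiv ℝ (g x ε) y - _root_.fderiv ℝ (g y ε') y‖ ≤ K * ε ^ (p + 1) := by
    refine ⟨8 * C0 * C, by positivity, fun x hx y hy ε ε' a0 a1 a2 a3 hs => ?_⟩
    have a4 := a0.trans_le a1
    have a5 := a1.trans_lt a3
    have a6 : C * ε' ^ (p + 2) ≤ C * ε ^ (p + 2) := by gcongr
    have h1 := hI E F (g x ε - g y ε') y ε' (2 * (C * ε ^ (p + 2))) (2 * (C * ε ^ (p + 2)) / ε' ^ (M + 1))
      a0 (((hg x hx ε a4 a3).1.mono hs).sub (hg y hy ε' a0 a5).1) (fun z hz => by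
        have := norm_sub_le_norm_sub_add_norm_sub (g x ε z) (f z) (g y ε' z)
        rw [norm_sub_rev _ (f z)] at this
        rw [Pi.sub_apply]
        linarith [((hg x hx ε a4 a3).2 z (hs hz)).1, ((hg y hy ε' a0 a5).2 z hz).1])
      (fun z hz => by
        rw [iteratedFDeriv_sub_apply (gd x hx ε a4 a3 z (hs hz)) (gd y hy ε' a0 a5 z hz),
          le_div_iff₀ (by positivity)]
        refine (mul_le_mul_of_nonneg_right (norm_sub_le _ _) (by positivity)).trans ?_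
        have : ‖iteratedFDeriv ℝ (M + 1) (g x ε) z‖ * ε' ^ (M + 1) ≤
            ‖iteratedFDeriv ℝ (M + 1) (g x ε) z‖ * ε ^ (M + 1) := by gcongr
        linarith [((hg x hx ε a4 a3).2 z (hs hz)).2, ((hg y hy ε' a0 a5).2 z hz).2])
      1 (by omega) y (mem_ball_self (half_pos a0))
    rw [norm_iteratedFDeriv_one, fderiv_sub (gd' x hx ε a4 a3 y (hs (mem_ball_self a0)))
      (gd' y hy ε' a0 a5 y (mem_ball_self a0)), Nat.add_sub_cancel] at h1
    refine h1.trans ?_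
    have e : C0 * (2 * (C * ε ^ (p + 2)) / ε' ^ 1 + 2 * (C * ε ^ (p + 2)) / ε' ^ (M + 1) * ε' ^ M) =
        4 * C0 * C * ε ^ (p + 1) * (ε / ε') := by field_simp; ring
    rw [e]
    refine (mul_le_mul_of_nonneg_left ((div_le_iff₀ a0).2 a2) (by positivity)).trans (le_of_eq ?_)
    ring
  have hL := fun y (hy : y ∈ ball x₀ r) => lim_of_scales (a := fun ε => _root_.fderiv ℝ (g y ε) y) hr k0
    fun ε ε' a0 a1 a2 a3 => hK y hy y hy ε ε' a0 a1 a2 a3 (ball_subset_ball a1)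
  choose! L hL using hL
  have L2 : ∀ x ∈ ball x₀ r, ∀ y ∈ ball x₀ r, ∀ ε, ε < r → y ∈ ball x (ε / 2) →
      ‖_root_.fderiv ℝ (g x ε) y - L y‖ ≤ 3 * K * ε ^ (p + 1) := fun x hx y hy ε a1 a2 => by
    have a0 := pos_of_mem_ball a2
    have b1 := hK x hx y hy ε (ε / 2) a0 (by linarith) (by linarith) a1
      (ball_subset_ball' (by linarith [mem_ball.1 a2]))
    have b2 := hL y hy (ε / 2) a0 (by linarith)
    have b3 : K * (ε / 2) ^ (p + 1) ≤ K * ε ^ (p + 1) := by gcongr; linarith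
    linarith [norm_sub_le_norm_sub_add_norm_sub (_root_.fderiv ℝ (g x ε) y)
      (_root_.fderiv ℝ (g y (ε / 2)) y) (L y)]
  have hA : Apx (p + 1) L x₀ := by
    refine ⟨M, 3 * K * 2 ^ (p + 1) + C * 2 ^ (p + 2), r / 2, half_pos hr, fun x hx ε a0 a1 => ?_⟩
    have hx' := ball_subset_ball (half_le_self hr.le) hx
    have hs : ball x ε ⊆ ball x (2 * ε) := ball_subset_ball (by linarith)
    obtain ⟨g1, g2⟩ := hg x hx' (2 * ε) (by linarith) (by linarith)
    refine ⟨_root_.fderiv ℝ (g x (2 * ε)), (g1.fderiv_of_isOpen isOpen_ball (by simp)).mono hs,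
      fun y hy => ⟨?_, ?_⟩⟩
    · have := L2 x hx' y (by
        rw [mem_ball] at *
        linarith [dist_triangle y x x₀]) (2 * ε) (by linarith) (by simpa using hy)
      rw [norm_sub_rev, mul_pow] at this
      have : 0 ≤ C * 2 ^ (p + 2) * ε ^ (p + 1) := by positivity
      linarith
    · rw [norm_iteratedFDeriv_fderiv]
      have b1 := (g2 y (hs hy)).2
      have b2 : ‖iteratedFDeriv ℝ (M + 1) (g x (2 * ε)) y‖ * ε ^ (M + 1) ≤
          ‖iteratedFDeriv ℝ (M + 1) (g x (2 * ε)) y‖ * (2 * ε) ^ (M + 1) := by gcongr; linarith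
      have b3 : 0 ≤ 3 * K * 2 ^ (p + 1) * ε ^ (p + 1) * ε := by positivity
      refine le_of_mul_le_mul_right ?_ a0
      rw [mul_pow 2 ε (p + 2), pow_succ ε (p + 1)] at b1
      rw [pow_succ ε M] at b2
      linarith
  have hD : ∀ᶠ x in nhds x₀, HasFDerivAt f (L x) x := by
    filter_upwards [hA.continuousAt, ball_mem_nhds x₀ (half_pos hr)] with x hc hx
    have hx' := ball_subset_ball (half_le_self hr.le) hx
    refine hasFDerivAt_iff_isLittleO.2 (Asymptotics.isLittleO_iff.2 fun η hη => ?_)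
    obtain ⟨δ, d0, hδ⟩ := Metric.continuousAt_iff.1 hc (η / 2) (half_pos hη)
    have h1 : Filter.Tendsto (fun y => (8 * C + 3 * K) * (4 * ‖y - x‖) ^ (p + 1)) (nhds x) (nhds 0) :=
      Continuous.tendsto' (by fun_prop) _ _ (by simp)
    filter_upwards [h1.eventually (ge_mem_nhds (half_pos hη)), ball_mem_nhds x (half_pos d0),
      ball_mem_nhds x (by positivity : 0 < r / 4)] with y b1 b2 b3
    rw [mem_ball_iff_norm] at b2 b3
    rcases (norm_nonneg (y - x)).eq_or_lt with e | b0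
    · rw [sub_eq_zero.1 (norm_eq_zero.1 e.symm)]
      simp
    obtain ⟨ε, hε⟩ : ∃ ε, ε = 4 * ‖y - x‖ := ⟨_, rfl⟩
    rw [← hε] at b1
    have a0 : 0 < ε := by linarith
    have a1 : ε < r := by linarith
    have h2 := (convex_ball x (ε / 2)).norm_image_sub_le_of_norm_fderiv_le' (f := g x ε) (φ := L x)
      (C := 3 * K * ε ^ (p + 1) + η / 2)
      (fun z hz => gd' x hx' ε a0 a1 z (ball_subset_ball (half_le_self a0.le) hz)) (fun z hz => by
        have c1 := L2 x hx' z (by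
          rw [mem_ball] at *
          linarith [dist_triangle z x x₀]) ε a1 hz
        have c2 := hδ (x := z) (by linarith [mem_ball.1 hz])
        rw [dist_eq_norm] at c2
        linarith [norm_sub_le_norm_sub_add_norm_sub (_root_.fderiv ℝ (g x ε) z) (L z) (L x)])
      (mem_ball_self (half_pos a0)) (mem_ball_iff_norm.2 (by linarith) : y ∈ _)
    have c1 := ((hg x hx' ε a0 a1).2 y (mem_ball_iff_norm.2 (by linarith))).1
    have c2 := ((hg x hx' ε a0 a1).2 x (mem_ball_self a0)).1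
    have c3 : C * ε ^ (p + 2) = 4 * C * ε ^ (p + 1) * ‖y - x‖ := by rw [pow_succ ε (p + 1), hε]; ring
    rw [show f y - f x - L x (y - x) = (f y - g x ε y) - (f x - g x ε x) +
      (g x ε y - g x ε x - L x (y - x)) by abel]
    refine (norm_add_le _ _).trans ((add_le_add (norm_sub_le _ _) h2).trans ?_)
    nlinarith [mul_le_mul_of_nonneg_right b1 b0.le]
  exact ⟨hD.mono fun x hx => hx.differentiableAt, hA.congr (hD.mono fun x hx => hx.fderiv.symm)⟩

theorem contDiffAt_of_apx [CompleteSpace F] (k : ℕ) {f : E → F} {x₀ : E}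
    (h : Apx (k + 1) f x₀) : ContDiffAt ℝ k f x₀ := by
  induction k generalizing F with
  | zero =>
    exact contDiffAt_zero.2 ⟨_, h.continuousAt, fun x hx => ContinuousAt.continuousWithinAt hx⟩
  | succ k ih =>
    rw [Nat.cast_succ]
    exact contDiffAt_succ_iff_hasFDerivAt.2 ⟨_root_.fderiv ℝ f,
      ⟨_, h.fderiv.1, fun x hx => DifferentiableAt.hasFDerivAt hx⟩, ih h.fderiv.2⟩

theorem contDiffOn_of_apx [CompleteSpace F] {f : E → F} {Ω : Set E}
    (h : ∀ p, ∀ x ∈ Ω, Apx p f x) : ∀ x ∈ Ω, ContDiffAt ℝ ∞ f x := fun x hx =>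
  contDiffAt_infty.2 fun k => contDiffAt_of_apx k (h _ x hx)

end Crest.Agent.N221.X
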